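import Vale.Agent.P216.D337.Om1
import Vale.Agent.P216.ND.OmD
import Vale.Agent.P216.H977C.Eta
import Vale.Agent.P216.H787.Rev

/-!
# P216-D, block MID for `h = 1`

For `h = 1` the class `W_1` is the class `η` of the cocycle `ξ = τ(·, y')` (`stp_one_eq`), so MID is
the non-triviality of `η` on the paths (`EtaNeK`): `midOneK_of`, `omegaOne_of`.
-/

open Finsupp Set BoundedContinuousFunction

namespace Vale.Agent.P216.D337

open Vale.Agent.P216.Sl Vale.Agent.P216.PS Vale.Agent.P216.N929 Vale.Agent.P216.H977C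
open Vale.Agent.P216.B64 (HU hres hpull UMap OmegaOut)

/-- **[ETANE]** in degree `n = dim M`: the class `η` of a non-exact cocycle `ξ` of degree `n` is not
exact on the paths of a duration `s` independent of the field. -/
def EtaNeK (Kf : Fld) (M : Type) [MetricSpace M] (n : ℕ) : Prop :=
  ∃ s : ℝ, 0 ≤ s ∧ ∀ (k : Type) [Field k], Kf k → ∀ (ξ : List M → k) (ε : ℝ), 0 < ε → Nrm ξ →
    Coc (univ : Set M) ε n ξ → ¬ ExL (univ : Set M) n ξ → ∀ N : ℕ, 1 / ((N : ℝ) + 1) < ε / 4 →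
      ∀ a b : M, ¬ ExL (P a b s) (n - 1) (H140.eta N ξ)

/-- A geometric datum. -/
theorem exists_geoD {M : Type} [MetricSpace M] [PreconnectedSpace M] [Nontrivial M] {ρ : ℝ}
    (hρ : 0 < ρ) (hU : LS.UniqSeg M ρ) {n : ℕ} (hn : 2 ≤ n) (x₀ : M) :
    ∃ G : Geo M n, G.x₀ = x₀ := by
  obtain ⟨a, b, h1, h2, h3⟩ := ND.exists_points' x₀
  exact exists_geo hU hρ hn h1 h2 h3

section

variable {k : Type} [Field k] {M : Type} [MetricSpace M] [CompactSpace M] {n : ℕ} {ρ₁ : ℝ}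

theorem intg_one {τ : List (M × M) → k} {r : ℝ} {y : M} {L : List ((ℝ →ᵇ M) × ℝ)}
    (hL : L.length = n + 1) : intg n τ (one1 k _) r y L = τ (L.map (evp y)) := by
  rw [intg, N929.cup, List.take_of_length_le (by omega), one1, if_pos (by
    rw [List.length_map, List.length_drop]; omega), mul_one]

/-- `W_1` is the class `η` of `τ(·, y)`. -/
theorem stp_one_eq {τ : List (M × M) → k} {r : ℝ} {y : M} (N : ℕ) {l : List (ℝ →ᵇ M)}
    (hl : l.length = n) : stp n τ r (1 / ((N : ℝ) + 1)) y (one1 k _) l =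
      H140.eta N (fun l => τ (l.map fun x => (x, y))) l := by
  unfold stp H140.eta fibI
  refine finsum_congr fun j => ?_
  rw [N929.fib, N929.fib]
  refine ev_congr (P := fun L : List ((ℝ →ᵇ M) × ℝ) => L.length = n + 1) (fun L hL => ?_) ?_
  · rw [intg_one hL]
    show _ = τ ((L.map H140.evw).map fun x => (x, y))
    rw [List.map_map]
    rfl
  · refine sh_mem (P := fun s => s = l) (Q := fun t : List ℝ => t.length = 2)
      (fun s t L hs ht hL => ?_) (single_mem (P := fun s => s = l) rfl _) ?_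
    · have := hL.1
      rw [hs, ht] at this
      omega
    · exact single_mem (P := fun t : List ℝ => t.length = 2) rfl 1

end

/-- **MID for `h = 1`.** -/
theorem midOneK_of {Kf : Fld} {M : Type} [MetricSpace M] [CompactSpace M] [PreconnectedSpace M]
    [Nontrivial M] {ρ : ℝ} (hρ : 0 < ρ) (hU : LS.UniqSeg M ρ) {n : ℕ} (hn : 2 ≤ n)
    (hE : EtaNeK Kf M n) : MidOneK Kf M n := by
  obtain ⟨a, b, hab⟩ := exists_pair_ne M
  obtain ⟨G, -⟩ := exists_geoD hρ hU hn a
  obtain ⟨s, hs, H⟩ := hE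
  refine ⟨G, s, hs, fun k _ hk τ hτ => ?_⟩
  refine mid_of G τ (etaOne k M) hs (by omega) fun c => ?_
  obtain ⟨η₀, h1⟩ := exists_scl (y := G.y (!c)) τ G.h1r (cutMod G.seg G.hr G.hrρ _)
    (etaOne k M).hε
  obtain ⟨N, hN⟩ := exists_nat_one_div_lt (lt_min h1.pos (show 0 < τ.ε / 4 by linarith [τ.hε]))
  refine ⟨1 / ((N : ℝ) + 1), by positivity, η₀, h1, hN.trans_le (min_le_left _ _), fun hx => ?_⟩
  set ξ : List M → k := fun l => τ.f (l.map fun x => (x, G.y (!c))) with hξ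
  have hc : Coc (univ : Set M) τ.ε n ξ := by
    intro l hl hs'
    rw [hξ, N929.dl_map]
    refine τ.coc _ (by rw [List.length_map, hl]) ⟨fun _ _ => mem_univ _, fun x hx y hy => ?_⟩
    obtain ⟨a, ha, rfl⟩ := List.mem_map.1 hx
    obtain ⟨b, hb, rfl⟩ := List.mem_map.1 hy
    rw [Prod.dist_eq]
    simpa using hs'.2 a ha b hb
  refine H k hk ξ τ.ε τ.hε (τ.nrm.map _) hc (hτ _) N (hN.trans_le (min_le_right _ _))
    (G.y c) (G.y c) ?_
  refine Sg.exL_congr one_pos (fun l hl _ => ?_) hx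
  exact stp_one_eq N (by omega)

/-- **OMEGA for `h = 1`**, from THOM and ETANE. -/
theorem omegaOne_of {Kf : Fld} {M : Type} [MetricSpace M] [CompactSpace M] [SimplyConnectedSpace M]
    [Nontrivial M] {ρ : ℝ} (hρ : 0 < ρ) (hU : LS.UniqSeg M ρ) {n : ℕ} (hn : 2 ≤ n)
    (hT : ThomK Kf M n) (hE : EtaNeK Kf M n) :
    ∃ (x₀ : M) (B : ℝ), 0 < B ∧ ∀ (k : Type) [Field k], Kf k →
      Nonempty (OmegaOut M (n - 1) x₀ B k) :=
  omegaOneK hT (midOneK_of hρ hU hn hE)

end Vale.Agent.P216.D337
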