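import Vale.Agent.P216.D337.TrivPY

/-!
# P216-D, block [D-WANG]: the map of path spaces defined by a Lipschitz map

For `G : M → N` with constant `K > 0`: `gm G K w = G ∘ w (· / K)`. It maps `P a b t` to
`P (G a) (G b) (K * t)`, commutes with the reversals and, strictly, with the transport along tracks
(`tw_gm`), if the tracks in `N` are the images of the tracks in `M` (`TrY.map`).
-/

set_option linter.all false

open Set Filter Topology BoundedContinuousFunction

namespace Vale.Agent.P216.D337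

open Vale.Agent.P216.PS Vale.Agent.P216.MV337 Vale.Agent.P216.C337
open Vale.Agent.P216.AS (IsMap IsHtpy)
open Vale.Agent.P216.H901 (Hp SpIntl Cu cub bdc ovr tr Triv)
open Vale.Agent.P216.H754B (cuM cuM_enc rv_apply lip_rv)

/-- `G` is Lipschitz with the constant `K`. -/
def LipC {M N : Type*} [MetricSpace M] [MetricSpace N] (G : M → N) (K : ℝ) : Prop :=
  ∀ x y, dist (G x) (G y) ≤ K * dist x y

theorem LipC.continuous {M N : Type*} [MetricSpace M] [MetricSpace N] {G : M → N} {K : ℝ}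
    (hG : LipC G K) (hK : 0 < K) : Continuous G := by
  refine Metric.continuous_iff.2 fun x ε hε => ⟨ε / K, by positivity, fun y hy => ?_⟩
  refine (hG y x).trans_lt ?_
  rw [lt_div_iff₀ hK] at hy
  linarith

section gm

variable {M N : Type} [MetricSpace M] [MetricSpace N] [CompactSpace N] {G : M → N} {K : ℝ}

/-- `w ↦ G ∘ w (· / K)` -/
noncomputable def gm (G : M → N) (K : ℝ) (w : ℝ → M) : ℝ →ᵇ N := mo fun u => G (w (u / K))

omit [CompactSpace N] in
theorem lip_gm (hG : LipC G K) (hK : 0 < K) {w : ℝ → M} (hw : Lip w) :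
    Lip fun u => G (w (u / K)) := fun u v => by
  refine (hG _ _).trans ?_
  have h1 := hw (u / K) (v / K)
  have h2 : K * |u / K - v / K| = |u - v| := by
    rw [← sub_div, abs_div, abs_of_pos hK]
    field_simp
  rw [← h2]
  exact mul_le_mul_of_nonneg_left h1 hK.le

theorem gm_apply (hG : LipC G K) (hK : 0 < K) {w : ℝ → M} (hw : Lip w) (u : ℝ) :
    gm G K w u = G (w (u / K)) := (lip_gm hG hK hw).mo_apply u

theorem gm_mem_P (hG : LipC G K) (hK : 0 < K) {a b : M} {t : ℝ} {w : ℝ →ᵇ M} (hw : w ∈ P a b t) :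
    gm G K w ∈ P (G a) (G b) (K * t) := by
  refine ⟨fun u v => ?_, fun u hu => ?_, fun u hu => ?_⟩
  · rw [gm_apply hG hK hw.1, gm_apply hG hK hw.1]
    exact lip_gm hG hK hw.1 u v
  · rw [gm_apply hG hK hw.1, hw.2.1 _ (div_nonpos_of_nonpos_of_nonneg hu hK.le)]
  · rw [gm_apply hG hK hw.1, hw.2.2 _ ((le_div_iff₀ hK).2 (by linarith))]

theorem gm_zero (hG : LipC G K) (hK : 0 < K) {w : ℝ → M} (hw : Lip w) : gm G K w 0 = G (w 0) := by
  rw [gm_apply hG hK hw, zero_div]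

theorem gm_mem_FL (hG : LipC G K) (hK : 0 < K) {t : ℝ} {w : ℝ →ᵇ M} (hw : w ∈ FL M t) :
    gm G K w ∈ FL N (K * t) := by
  have h : w ∈ P (w 0) (w 0) t := hw
  exact P_subset_FL (gm_mem_P hG hK h)

/-- The reversal. -/
theorem rv_gm (hG : LipC G K) (hK : 0 < K) {w : ℝ →ᵇ M} (hw : Lip w) (t : ℝ) :
    H754B.rv (K * t) (gm G K w) = gm G K (H754B.rv t w) := by
  ext u
  rw [rv_apply, gm_apply hG hK hw, gm_apply hG hK (lip_rv hw t), rv_apply]
  congr 2
  field_simp

/-- The distance. -/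
theorem dist_gm_le (hG : LipC G K) (hK : 0 < K) {w w' : ℝ →ᵇ M} (hw : Lip w) (hw' : Lip w') :
    dist (gm G K w) (gm G K w') ≤ K * dist w w' := by
  rw [BoundedContinuousFunction.dist_le (mul_nonneg hK.le dist_nonneg)]
  intro u
  rw [gm_apply hG hK hw, gm_apply hG hK hw']
  exact (hG _ _).trans (mul_le_mul_of_nonneg_left
    (BoundedContinuousFunction.dist_coe_le_dist (f := w) (g := w') _) hK.le)

/-- `gm` is uniformly continuous on sets of Lipschitz paths. -/
theorem map_gm (hG : LipC G K) (hK : 0 < K) {A : Set (ℝ →ᵇ M)} {B : Set (ℝ →ᵇ N)}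
    (hA : ∀ w ∈ A, Lip w) (hm : ∀ w ∈ A, gm G K w ∈ B) :
    IsMap (tr _) (tr _) A B (fun w => gm G K w) where
  mapsX := hm
  eqv i := i.elim
  uc ε hε := ⟨ε / K, by positivity, fun x hx y hy h =>
    (dist_gm_le hG hK (hA x hx) (hA y hy)).trans_lt (by rwa [lt_div_iff₀' hK] at h)⟩

theorem map_gm_P (hG : LipC G K) (hK : 0 < K) (a b : M) (t : ℝ) :
    IsMap (tr _) (tr _) (P a b t) (P (G a) (G b) (K * t)) (fun w : ℝ →ᵇ M => gm G K w) :=
  map_gm hG hK (fun _ hw => hw.1) fun _ hw => gm_mem_P hG hK hw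

theorem map_gm_FL (hG : LipC G K) (hK : 0 < K) (t : ℝ) :
    IsMap (tr _) (tr _) (FL M t) (FL N (K * t)) (fun w : ℝ →ᵇ M => gm G K w) :=
  map_gm hG hK (fun _ hw => hw.1) fun _ hw => gm_mem_FL hG hK hw

end gm

section tracks

variable {Y M N : Type} [MetricSpace Y] [MetricSpace M] [CompactSpace M] [MetricSpace N]
  [CompactSpace N] {G : M → N} {K m m' t : ℝ} {L : Set Y} {F F' F₂ F₂' : Y → M}
  {S R : Y → ℝ → M}

/-- The images of the tracks. -/
noncomputable def trm (G : M → N) (K : ℝ) (S : Y → ℝ → M) (y : Y) (u : ℝ) : N := G (S y (u / K))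

omit [CompactSpace M] [CompactSpace N] in
theorem _root_.Vale.Agent.P216.C337.TrY.map (hG : LipC G K) (hK : 0 < K)
    (hS : TrY L F F' m S) : TrY L (fun y => G (F y)) (fun y => G (F' y)) (K * m) (trm G K S) where
  nonneg := mul_nonneg hK.le hS.nonneg
  lip y hy := lip_gm hG hK (hS.lip y hy)
  left y hy u hu := by
    rw [trm, hS.left y hy _ (div_nonpos_of_nonpos_of_nonneg hu hK.le)]
  right y hy u hu := by
    rw [trm, hS.right y hy _ ((le_div_iff₀ hK).2 (by linarith))]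
  cont := by
    unfold trm
    refine (hG.continuous hK).comp_continuousOn ?_
    exact hS.cont' (S := Y × ℝ) (X := fun p => p.1) (φ := fun p => p.2 / K) continuousOn_fst
      (fun p hp => hp.1) (by fun_prop)

/-- `(y, w) ↦ (y, gm w)` -/
noncomputable def gmY (G : M → N) (K : ℝ) (q : Y × (ℝ →ᵇ M)) : Y × (ℝ →ᵇ N) := (q.1, gm G K q.2)

omit [MetricSpace Y] in
theorem gmY_mem (hG : LipC G K) (hK : 0 < K) {q : Y × (ℝ →ᵇ M)} (hq : q ∈ PY F F₂ L t) :
    gmY G K q ∈ PY (fun y => G (F y)) (fun y => G (F₂ y)) L (K * t) :=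
  ⟨hq.1, gm_mem_P hG hK hq.2⟩

theorem map_gmY (hG : LipC G K) (hK : 0 < K) (F F₂ : Y → M) (L : Set Y) (t : ℝ) :
    IsMap (tr _) (tr _) (PY F F₂ L t) (PY (fun y => G (F y)) (fun y => G (F₂ y)) L (K * t))
      (gmY G K) where
  mapsX _ hq := gmY_mem hG hK hq
  eqv i := i.elim
  uc ε hε := by
    refine ⟨min ε (ε / K), lt_min hε (by positivity), fun x hx y hy h => ?_⟩
    have h1 := h.trans_le (min_le_left _ _)
    have h2 := h.trans_le (min_le_right _ _)
    refine max_lt ((le_max_left _ _).trans_lt h1) ?_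
    refine (dist_gm_le hG hK hx.2.1 hy.2.1).trans_lt ?_
    have h3 : dist x.2 y.2 < ε / K := (le_max_right _ _).trans_lt h2
    rwa [lt_div_iff₀' hK] at h3

omit [CompactSpace M] [CompactSpace N] in
theorem c2_gm (hK : 0 < K) (p q w : ℝ → M) (u : ℝ) :
    c2 (K * m) (K * t) (fun u => G (p (u / K))) (fun u => G (q (u / K))) (fun u => G (w (u / K))) u =
      G (c2 m t p q w (u / K)) := by
  unfold c2
  have e1 : u ≤ K * m ↔ u / K ≤ m := by rw [div_le_iff₀' hK]
  have e2 : u ≤ K * m + K * t ↔ u / K ≤ m + t := by rw [div_le_iff₀' hK, mul_add]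
  by_cases h1 : u / K ≤ m
  · rw [if_pos (e1.2 h1), if_pos h1]
    congr 2
    field_simp
  · rw [if_neg (fun h => h1 (e1.1 h)), if_neg h1]
    by_cases h2 : u / K ≤ m + t
    · rw [if_pos (e2.2 h2), if_pos h2]
      congr 2
      field_simp
    · rw [if_neg (fun h => h2 (e2.1 h)), if_neg h2]
      congr 2
      field_simp

/-- **Transport along tracks commutes strictly with `gm`.** -/
theorem tw_gm (hG : LipC G K) (hK : 0 < K) (hS : TrY L F F' m S) (hR : TrY L F₂ F₂' m' R)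
    (ht : 0 ≤ t) {q : Y × (ℝ →ᵇ M)} (hq : q ∈ PY F F₂ L t) :
    tw (K * m) (K * t) (trm G K S) (trm G K R) (gmY G K q) = gmY G K (tw m t S R q) := by
  have l1 : Lip (c2 m t (S q.1) (R q.1) q.2) := tw_lip hS hR ht hq
  refine Prod.ext rfl ?_
  change mo (c2 (K * m) (K * t) (trm G K S q.1) (trm G K R q.1) (gm G K q.2)) =
    gm G K (mo (c2 m t (S q.1) (R q.1) q.2))
  have e1 : (fun u => gm G K q.2 u) = fun u => G (q.2 (u / K)) :=
    funext fun u => gm_apply hG hK hq.2.1 u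
  have e2 : (fun u => mo (c2 m t (S q.1) (R q.1) q.2) u) = c2 m t (S q.1) (R q.1) q.2 :=
    funext fun u => l1.mo_apply u
  have e3 : gm G K (mo (c2 m t (S q.1) (R q.1) q.2)) = gm G K (c2 m t (S q.1) (R q.1) q.2) := by
    unfold gm
    congr 1
    funext u
    rw [l1.mo_apply]
  rw [e3]
  unfold gm
  congr 1
  funext u
  rw [← c2_gm (G := G) hK]
  unfold c2 trm
  have e4 : ∀ v, mo (fun u => G (q.2 (u / K))) v = G (q.2 (v / K)) :=
    fun v => gm_apply hG hK hq.2.1 v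
  simp only [e4]

end tracks

/-! ### The free loops of `Y` and the loops of `N` over `Y` -/

section FL

variable {Y N : Type} [MetricSpace Y] [CompactSpace Y] [MetricSpace N] [CompactSpace N] {G : Y → N}
  {K ℓ t : ℝ} {y₀ : Y} {T Tp Tm : Y → ℝ → Y} {D : Set Y} {n : ℕ}

omit [CompactSpace Y] in
/-- Tracks of `MV337` are tracks from the identity. -/
theorem trY_of_tr (h : MV337.Tr D y₀ ℓ T) : TrY D (fun y => y) (fun _ => y₀) ℓ T :=
  ⟨h.nonneg, h.lip, h.left, h.right, h.cont⟩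

/-- **The fibrewise map**: `w ↦ (w 0, G ∘ w (· / K))`. -/
noncomputable def phiY (G : Y → N) (K : ℝ) (w : ℝ →ᵇ Y) : Y × (ℝ →ᵇ N) := (w 0, gm G K w)

omit [CompactSpace Y] in
theorem mem_PY_id {w : ℝ →ᵇ Y} : (w ∈ FLD D t) ↔ (w 0, w) ∈ PY (fun y : Y => y) (fun y => y) D t :=
  ⟨fun h => ⟨h.2, h.1⟩, fun h => ⟨h.2, h.1⟩⟩

theorem phiY_mem (hG : LipC G K) (hK : 0 < K) {w : ℝ →ᵇ Y} (hw : w ∈ FLD D t) :
    phiY G K w ∈ PY G G D (K * t) := gmY_mem hG hK (mem_PY_id.1 hw)

theorem map_phiY (hG : LipC G K) (hK : 0 < K) (D : Set Y) (t : ℝ) :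
    IsMap (tr _) (tr _) (FLD D t) (PY G G D (K * t)) (phiY G K) where
  mapsX _ hw := phiY_mem hG hK hw
  eqv i := i.elim
  uc ε hε := by
    refine ⟨min ε (ε / K), lt_min hε (by positivity), fun x hx y hy h => ?_⟩
    have h1 := h.trans_le (min_le_left _ _)
    have h2 := h.trans_le (min_le_right _ _)
    refine max_lt ((BoundedContinuousFunction.dist_coe_le_dist (f := x) (g := y) 0).trans_lt h1) ?_
    refine (dist_gm_le hG hK hx.1.1 hy.1.1).trans_lt ?_
    rwa [lt_div_iff₀' hK] at h2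

/-- **Strict commutation over a cap**, for the maps `cut` of the free loops of `Y`. -/
theorem tw_phiY (hG : LipC G K) (hK : 0 < K) (hT : MV337.Tr D y₀ ℓ T) (ht : 0 ≤ t) {w : ℝ →ᵇ Y}
    (hw : w ∈ FLD D t) :
    tw (K * ℓ) (K * t) (trm G K T) (trm G K T) (phiY G K w) = (w 0, gm G K (cut T ℓ t w)) :=
  tw_gm hG hK (trY_of_tr hT) (trY_of_tr hT) ht (mem_PY_id.1 hw)

variable (C : Caps n Y y₀) (hG : LipC G K) (hK : 0 < K) (hp : MV337.Tr C.Dp y₀ ℓ Tp)
  (hm : MV337.Tr C.Dm y₀ ℓ Tm)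

/-- The trivialisation of the loops of `N` over `Y` defined by the images of the tracks of `Y`. -/
noncomputable def trivG :
    Triv n (Prod.fst : Y × (ℝ →ᵇ N) → Y) (fun t => PY G G univ t) (fun t => P (G y₀) (G y₀) t)
      (K * ℓ + K * ℓ) :=
  trivPY C (hG.continuous hK) (hG.continuous hK) ((trY_of_tr hp).map hG hK)
    ((trY_of_tr hp).map hG hK) ((trY_of_tr hm).map hG hK) ((trY_of_tr hm).map hG hK)

/-- **Strict commutation with the trivialisations, over `Dm`.** -/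
theorem trivG_tm (ht : 0 ≤ t) {w : ℝ →ᵇ Y} (hw : w ∈ FLD C.Dm t) :
    (trivG C hG hK hp hm).tm.f (K * t) (phiY G K w) = gm G K ((trivOf C hp hm).tm.f t w) :=
  congrArg Prod.snd (tw_phiY hG hK hm ht hw)

/-- **Strict commutation with the trivialisations, over `Dp`.** -/
theorem trivG_tp (ht : 0 ≤ t) {w : ℝ →ᵇ Y} (hw : w ∈ FLD C.Dp t) :
    (trivG C hG hK hp hm).tp.f (K * t) (phiY G K w) =
      cuM (fun w : ℝ →ᵇ Y => gm G K w) n ((trivOf C hp hm).tp.f t w) := by
  have h := congrArg Prod.snd (tw_phiY hG hK hp ht hw)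
  change enc n (tw (K * ℓ) (K * t) (trm G K Tp) (trm G K Tp) (phiY G K w)).2 (C.φ (w 0)) =
    cuM (fun w : ℝ →ᵇ Y => gm G K w) n (enc n (cut Tp ℓ t w) (C.φ (w 0)))
  rw [cuM_enc, h]

end FL

end Vale.Agent.P216.D337
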