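import Vale.Agent.P216.H977C.OmD
import Vale.Agent.P216.H347.Cross

/-!
# P216-D, block OM1: OMEGA for a homology sphere (`h = 1`), intrinsic form

`etaOne` = the unit class (`e = 0`). `MidOneK` = MID for the unit class: `W_1 ≠ 0` on the loops at
`y b`. `omegaOneK`: THOM and MID give the classes of the based loops, with one constant for all
fields of the class.
-/

open Finsupp Set BoundedContinuousFunction

namespace Vale.Agent.P216.D337

open Vale.Agent.P216.Sl Vale.Agent.P216.PS Vale.Agent.P216.N929 Vale.Agent.P216.H977C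
open Vale.Agent.P216.B64 (HU hres hpull UMap OmegaOut)

/-- The unit class. -/
noncomputable def etaOne (k : Type) [Field k] (M : Type) [MetricSpace M] : Eta k M 0 where
  f := one1 k _
  nrm := nrm_one1
  ε := 1
  hε := one_pos
  coc _ _ _ := coc_one1 _ _

/-- **[MID]** with the unit class, for the fields of a class: `W_1 ≠ 0` at a duration `s`
independent of the field. -/
def MidOneK (Kf : Fld) (M : Type) [MetricSpace M] [CompactSpace M] (n : ℕ) : Prop :=
  ∃ (G : Geo M n) (s : ℝ), 0 ≤ s ∧ ∀ (k : Type) [Field k], Kf k → ∀ τ : Tau k M n G.ρ₁,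
    (∀ y : M, ¬ ExL (univ : Set M) n fun l => τ.f (l.map fun x => (x, y))) →
      Mid (D := n - 1) G τ (etaOne k M) s

section

variable {k : Type} [Field k] {M : Type} [MetricSpace M] [CompactSpace M] {n : ℕ}
  (G : Geo M n) (τ : Tau k M n G.ρ₁)

/-- The integrand for the unit class. -/
theorem aL_one {r : ℝ} {y : M} {L : List ((ℝ →ᵇ M) × ℝ)} (hL : L.length = n + 1) :
    Sg.aL n τ.f (one1 k _) r y L = τ.f (L.map (evp y)) := by
  unfold Sg.aL
  rw [List.take_of_length_le (by omega), one1, if_pos (by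
    rw [List.length_map, List.length_drop]; omega), mul_one]
  rfl

/-- The cycles of loops at `y b` with intersection number `1` with `y (!b)`. -/
theorem ha_of_mid {s : ℝ} (hs : 0 ≤ s) (hmid : Mid (D := n - 1) G τ (etaOne k M) s) (b : Bool) :
    ∃ ε₁ > 0, ∀ ε, 0 < ε → ε ≤ ε₁ → ∃ a : Ch k (ℝ →ᵇ M),
      Cy (P (G.y b) (G.y b) s) ε (n - 1) a ∧ ∀ ι, Edge 0 s ε ι →
        ev (fun l => τ.f (l.map (evp (G.y (!b))))) (sh a ι) = 1 := by
  have hn := G.hn
  obtain ⟨η₀, h1⟩ := exists_scl (y := G.y (!b)) τ G.h1r (cutMod G.seg G.hr G.hrρ _)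
    (etaOne k M).hε
  refine ⟨η₀, h1.pos, fun ε hε hε' => ?_⟩
  obtain ⟨Y, hY, ι, hι, hne⟩ := hmid b ε hε
  have key : ∀ ι', Edge 0 s ε ι' → ev (fun l => τ.f (l.map (evp (G.y (!b))))) (sh Y ι') =
      ev (stp n τ.f G.r (ε / 2) (G.y (!b)) (etaOne k M).f) Y := fun ι' hι' => by
    rw [stp_eval τ G.seg G.hr G.hrρ G.hn (m := n - 1) (d := 0) (by omega) (h1.mono hε hε')
      (G.hy b) (fun T => (etaOne k M).coc _ _ T) (half_pos hε) (half_lt_self hε) hs le_rfl
      hε le_rfl hY hι']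
    refine ev_congr (fun L hL => ?_) (Sg.Sp_SmL_sh (q := 1) hY.1 hι'.1)
    exact (aL_one G τ (by have := hL.1; omega)).symm
  set v := ev (stp n τ.f G.r (ε / 2) (G.y (!b)) (etaOne k M).f) Y with hv
  have hv0 : v ≠ 0 := by
    rw [← key ι hι]
    intro h0
    refine hne ?_
    rw [← h0]
    refine ev_congr (fun L hL => ?_) (Sg.Sp_SmL_sh (q := 1) hY.1 hι.1)
    exact aL_one G τ (by have := hL.1; omega)
  refine ⟨v⁻¹ • Y, ⟨Submodule.smul_mem _ _ hY.1, ?_⟩, fun ι' hι' => ?_⟩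
  · rw [map_smul]
    exact Submodule.smul_mem _ _ hY.2
  · rw [map_smul, LinearMap.smul_apply, map_smul, smul_eq_mul, key ι' hι', inv_mul_cancel₀ hv0]

end

/-- **OM1: OMEGA for a class of fields, `h = 1`.** -/
theorem omegaOneK {Kf : Fld} {M : Type} [MetricSpace M] [CompactSpace M] [SimplyConnectedSpace M]
    {n : ℕ} (hT : ThomK Kf M n) (hM : MidOneK Kf M n) :
    ∃ (x₀ : M) (B : ℝ), 0 < B ∧ ∀ (k : Type) [Field k], Kf k →
      Nonempty (OmegaOut M (n - 1) x₀ B k) := by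
  obtain ⟨G, s, hs0, H⟩ := hM
  have hn := G.hn
  obtain ⟨D, hD, hne, hj⟩ := H250.pi0 (G.hr.trans G.hrρ) G.seg
  refine ⟨G.x₀, OmSys.BB G.r (D + s) D, ?_, fun k _ hk => ?_⟩
  · have := G.hr
    unfold OmSys.BB
    linarith
  · obtain ⟨τ, hτ⟩ := hT k hk G.ρ₁ G.h1
    have S : OmSys k M (n - 1) G.r (D + s) G.x₀ τ.f :=
      omSys G τ Crs.cross (N := n - 1) (by omega) (fun _ => D) (fun _ => s) (fun _ => hD)
        (fun _ => hs0) (fun _ => rfl) (fun c => hne _ _) (ha_of_mid G τ hs0 (H k hk τ hτ))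
    refine ⟨S.omegaOut (r₀ := G.ρ₁) (εt := τ.ε) (D := D) G.seg G.hr G.hrρ G.h1r τ.hε ?_
      ⟨hD, hne, hj⟩ (by linarith) (by omega)⟩
    have e : n - 1 + 1 = n := by omega
    rw [e]
    exact ⟨τ.nrm, τ.coc, fun l _ _ h => τ.supp l h⟩

end Vale.Agent.P216.D337
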