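import Vale.Agent.P216.D337.TransferHU
import Vale.Agent.P216.D754.Goals
import Vale.Agent.P216.N929.Om2
import Vale.Agent.P216.H456D.TauOf
import Vale.Agent.P216.ND.Det
import Vale.Agent.P216.H787.Rev

/-!
# P216-D, block (E): `TrInj` from a Thom cochain

`trInj_of_not_exL`: `TrInj G (r + r) k` as soon as one slice of the Thom cochain of `M`, pulled
back to `S` by `G`, is not exact. `trInj_of_class`: the slices are cohomologous to `w` and
`G^* w` is not exact. `trInj_deg`: `G = g ∘ e`, `g : Sq m → M` with `(f ∘ g)^* w = c w`, `c ≠ 0`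
(the format of `ND.omegaD_of_deg`). `trInj_self`: the same for `h = e⁻¹ ∘ f ∘ g ∘ e : N → N`.
-/

set_option linter.all false

open Set Filter Topology BoundedContinuousFunction

namespace Vale.Agent.P216.D337

open Vale.Agent.P216.PS Vale.Agent.P216.MV337 Vale.Agent.P216.C337 Vale.Agent.P216.LS
open Vale.Agent.P216.AS (IsMap IsHtpy)
open Vale.Agent.P216.H901 (Hp SpIntl Cu cub bdc ovr tr on Triv)
open Vale.Agent.P216.N929 (Cy Tau)
open Vale.Agent.P216.B64 (HU hres hpull UMap a0 c0)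
open Vale.Agent.P216.Sl (Ch exists_cls cls_eq_zero pull_cls res_cls ExL CocL Nrm)

section gen

variable {M S : Type} [MetricSpace M] [CompactSpace M] [MetricSpace S] [CompactSpace S]
  {ρ r : ℝ} {G : S → M}

/-- **(E)** -/
theorem trInj [PreconnectedSpace M] {n : ℕ} {ρ₁ : ℝ} {k : Type} [Field k] (τ : Tau k M n ρ₁)
    (hn : 1 ≤ n) (hU : UniqSeg M ρ) (hr : 0 < r) (hrρ : r < ρ) (hρr : ρ₁ < r) (hG : Continuous G)
    (hcy : ∀ ε > 0, ∃ ι : Ch k S, Cy (univ : Set S) ε n ι ∧ ∃ y, dg τ G ι y ≠ 0) :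
    D754.TrInj G (r + r) k :=
  D754.trInj_of (by positivity) fun q t ht hu h' z hz =>
    transfer τ hn hU hr hrρ hρr hG hcy ht.le le_rfl h' z hu hz

theorem trInj_of_not_exL [PreconnectedSpace M] {n : ℕ} {ρ₁ : ℝ} {k : Type} [Field k]
    (τ : Tau k M n ρ₁) (hn : 1 ≤ n) (hU : UniqSeg M ρ) (hr : 0 < r) (hrρ : r < ρ) (hρr : ρ₁ < r)
    (hG : Continuous G) {y : M}
    (h : ¬ ExL (univ : Set S) n fun l => τ.f (l.map fun x => (G x, y))) :
    D754.TrInj G (r + r) k := by
  refine trInj τ hn hU hr hrρ hρr hG fun ε hε => ?_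
  obtain ⟨ι, h1, h2⟩ := N929.not_ex_iff.1 h ε hε
  exact ⟨ι, h1, y, h2⟩

theorem isMap_of_uc {α β : Type} [PseudoMetricSpace α] [PseudoMetricSpace β] {g : α → β}
    (hg : UniformContinuous g) : IsMap (tr α) (tr β) univ univ g where
  mapsX := fun _ _ => mem_univ _
  eqv := fun i => i.elim
  uc := fun ε hε => by
    obtain ⟨δ, hδ, h⟩ := Metric.uniformContinuous_iff.1 hg ε hε
    exact ⟨δ, hδ, fun x _ y _ hxy => h hxy⟩

theorem isMap_of_cont {g : S → M} (hg : Continuous g) : IsMap (tr S) (tr M) univ univ g :=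
  isMap_of_uc (CompactSpace.uniformContinuous_of_continuous hg)

theorem exL_comp {k : Type} [Field k] {n : ℕ} {g : S → M} (hg : Continuous g) {w : List M → k}
    (h : ExL (univ : Set M) n w) : ExL (univ : Set S) n fun l => w (l.map g) :=
  H456C.ExL.map' (isMap_of_cont hg) h

/-- `f - a g` exact, `f` not exact: `a ≠ 0` and `g` is not exact. -/
theorem ne_of_not_exL {k : Type} [Field k] {X : Set S} {n : ℕ} {f g : List S → k} {a : k}
    (h : ExL X n fun l => f l - a * g l) (hf : ¬ ExL X n f) : a ≠ 0 ∧ ¬ ExL X n g := by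
  refine ⟨?_, fun hg => ?_⟩
  · rintro rfl
    refine hf ?_
    simpa using h
  · refine hf ?_
    have h1 := Sg.exL_add h (Sg.exL_smul a hg)
    simpa using h1

theorem not_exL_of {k : Type} [Field k] {X : Set S} {n : ℕ} {f g : List S → k} {a : k}
    (h : ExL X n fun l => f l - a * g l) (ha : a ≠ 0) (hg : ¬ ExL X n g) : ¬ ExL X n f := by
  intro hf
  refine hg ?_
  have h1 := Sg.exL_smul a⁻¹ (Sg.exL_add (Sg.exL_smul (-1) h) hf)
  have e : (fun l => a⁻¹ * (-1 * (f l - a * g l) + f l)) = g := by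
    funext l
    field_simp
    ring
  rwa [e] at h1

theorem trInj_of_class [PreconnectedSpace M] {n : ℕ} {ρ₁ : ℝ} {k : Type} [Field k]
    (τ : Tau k M n ρ₁) (hn : 1 ≤ n) (hU : UniqSeg M ρ) (hr : 0 < r) (hrρ : r < ρ) (hρr : ρ₁ < r)
    (hG : Continuous G) {y : M} {w : List M → k}
    (hτ : ExL (univ : Set M) n fun l => τ.f (l.map fun x => (x, y)) - w l)
    (hw : ¬ ExL (univ : Set S) n fun l => w (l.map G)) :
    D754.TrInj G (r + r) k := by
  refine trInj_of_not_exL τ hn hU hr hrρ hρr hG (y := y) ?_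
  have h1 := exL_comp hG hτ
  refine not_exL_of (a := 1) (g := fun l => w (l.map G)) ?_ one_ne_zero hw
  have e : (fun l : List S => τ.f (l.map fun x => (G x, y)) - 1 * w (l.map G)) =
      fun l : List S => τ.f ((l.map G).map fun x => (x, y)) - w (l.map G) := by
    funext l
    rw [List.map_map, one_mul]
    rfl
  rw [e]
  exact h1

end gen

section sphere

open H779D (Sq)

variable {m : ℕ} {k : Type} [Field k]

theorem ne_zero_rs {ρ₁ : ℝ} {N : Type} [MetricSpace N] [CompactSpace N] (hm : 1 ≤ m)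
    (e : N ≃ₜ Sq m) (hρ : 0 < ρ₁) : ∃ τ : Tau k N (m + 1) ρ₁, ∀ y : N,
      CocL (univ : Set N) (m + 1) (fun l => τ.f (l.map fun x => (x, y))) ∧
      ¬ ExL (univ : Set N) (m + 1) fun l => τ.f (l.map fun x => (x, y)) := by
  obtain ⟨c, d, H, K, hK, H1⟩ := Tau.eval_all (n := m + 1) (by omega) e hρ
  refine ⟨Tau.tauS e k H hρ hK, fun y => ⟨?_, fun h => ?_⟩⟩
  · refine ⟨_, (Tau.tauS e k H hρ hK).hε, fun l hl hs => ?_⟩
    rw [Sl.dl_map]
    refine (Tau.tauS e k H hρ hK).coc _ (by rw [List.length_map, hl])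
      ⟨fun _ _ => mem_univ _, fun x hx y hy => ?_⟩
    obtain ⟨a, ha, rfl⟩ := List.mem_map.1 hx
    obtain ⟨b, hb, rfl⟩ := List.mem_map.1 hy
    rw [Prod.dist_eq]
    simpa using hs.2 a ha b hb
  · obtain ⟨G, d₃, hG, hGb, hd₃, hev⟩ := H1 true y y
    obtain ⟨d, hd, H2⟩ := ND.ev_exL h (q := y) (ND.nrm_replicate
      ((Tau.tauS e k H hρ hK).nrm.map _) (by omega) y) hG hGb
    obtain ⟨ι, hι⟩ := Tau.exists_isMesh k (b := 1) zero_le_one (lt_min hd hd₃)
    have h1 := H2 _ (lt_min hd hd₃) (min_le_left _ _) ι hι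
    have h2 := hev k _ (lt_min hd hd₃) (min_le_right _ _) ι hι
    refine one_ne_zero (α := k) (h2.symm.trans ?_)
    simp only [List.map_map] at h1
    exact h1

theorem not_exL_homeo {N : Type} [MetricSpace N] [CompactSpace N] {n : ℕ} (e : N ≃ₜ Sq m)
    {w : List (Sq m) → k} (hw : ¬ ExL (univ : Set (Sq m)) n w) :
    ¬ ExL (univ : Set N) n fun l => w (l.map e) := fun h => hw <| by
  have h1 := exL_comp e.symm.continuous h
  simp only [List.map_map] at h1
  have h2 : (⇑e ∘ ⇑e.symm) = id := by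
    funext x
    exact e.apply_symm_apply x
  simpa only [h2, List.map_id] using h1

variable {M N : Type} [MetricSpace M] [CompactSpace M] [MetricSpace N] [CompactSpace N]
  {ρ r ρ₁ : ℝ} {f : M → Sq m} {g : Sq m → M} {w : List (Sq m) → k} {c : k}

/-- **(E) for `G = g ∘ e`**, in the format of `ND.omegaD_of_deg`. -/
theorem trInj_deg [ConnectedSpace M] (e : N ≃ₜ Sq m) (hg : Continuous g) (hc : c ≠ 0)
    (hw0 : ¬ ExL (univ : Set (Sq m)) (m + 1) w)
    (hfg : ExL (univ : Set (Sq m)) (m + 1) fun l => w (l.map fun x => f (g x)) - c * w l)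
    (hU : UniqSeg M ρ) (hr : 0 < r) (hrρ : r < ρ) (hρr : ρ₁ < r) (τ : Tau k M (m + 1) ρ₁)
    (hτ : ∀ y, ExL (univ : Set M) (m + 1) fun l =>
      τ.f (l.map fun x => (x, y)) - w (l.map f)) :
    D754.TrInj (fun x : N => g (e x)) (r + r) k := by
  obtain ⟨y⟩ : Nonempty M := inferInstance
  refine trInj_of_class τ (by omega) hU hr hrρ hρr (hg.comp e.continuous) (hτ y) ?_
  refine not_exL_of (a := c) (g := fun l => w (l.map e)) ?_ hc (not_exL_homeo e hw0)
  have h1 := exL_comp e.continuous hfg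
  simp only [List.map_map] at h1 ⊢
  exact h1

/-- **(E) for `h = e⁻¹ ∘ f ∘ g ∘ e`**, on the model sphere. -/
theorem trInj_self [ConnectedSpace N] (hm : 1 ≤ m) (e : N ≃ₜ Sq m) (hf : Continuous f)
    (hg : Continuous g) (hc : c ≠ 0) (hwc : CocL (univ : Set (Sq m)) (m + 1) w)
    (hw0 : ¬ ExL (univ : Set (Sq m)) (m + 1) w)
    (hfg : ExL (univ : Set (Sq m)) (m + 1) fun l => w (l.map fun x => f (g x)) - c * w l)
    (hU : UniqSeg N ρ) (hr : 0 < r) (hrρ : r < ρ) :
    D754.TrInj (fun x : N => e.symm (f (g (e x)))) (r + r) k := by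
  obtain ⟨y⟩ : Nonempty N := inferInstance
  obtain ⟨τ, hτ⟩ := ne_zero_rs (k := k) hm e (half_pos hr)
  obtain ⟨hv, hv0⟩ := hτ y
  have hwe : ¬ ExL (univ : Set N) (m + 1) fun l => w (l.map e) := not_exL_homeo e hw0
  obtain ⟨a, ha⟩ := ND.sph_line (n := m + 1) (by omega) e hv
    (hwc.map (isMap_of_cont e.continuous)) hwe
  have ha0 := (ne_of_not_exL ha hv0).1
  have hh : Continuous fun x : N => e.symm (f (g (e x))) :=
    e.symm.continuous.comp (hf.comp (hg.comp e.continuous))
  refine trInj_of_not_exL τ (by omega) hU hr hrρ (half_lt_self hr) hh (y := y) ?_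
  -- the slices pulled back by `h`
  have h1 := exL_comp hh ha
  simp only [List.map_map] at h1
  refine not_exL_of (a := a) (g := fun l => w (l.map fun x => f (g (e x)))) ?_ ha0 ?_
  · have e1 : (fun l : List N => τ.f (l.map fun x => (e.symm (f (g (e x))), y)) -
        a * w (l.map fun x => f (g (e x)))) = fun l : List N =>
        τ.f (l.map ((fun x => (x, y)) ∘ fun x : N => e.symm (f (g (e x))))) -
          a * w (l.map (e ∘ fun x : N => e.symm (f (g (e x))))) := by
      funext l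
      have e2 : (e ∘ fun x : N => e.symm (f (g (e x)))) = fun x => f (g (e x)) := by
        funext x
        exact e.apply_symm_apply _
      rw [e2]
      rfl
    rw [e1]
    exact h1
  · refine not_exL_of (a := c) (g := fun l => w (l.map e)) ?_ hc hwe
    have h3 := exL_comp e.continuous hfg
    simp only [List.map_map] at h3
    exact h3

end sphere

end Vale.Agent.P216.D337
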