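import Vale.Agent.P216.N929.Ctr
import Vale.Agent.P216.H787.Cls

/-!
# P216-D, block [D-TR]: the transfer, on list cochains

`τ` a Thom cochain of `M`, `G : S → M`, `ev₀ : E → M` contracting. If a normalised list cochain `w`
of degree `q` on `X ⊆ E` becomes exact on the pairs `(e, x)`, `dist (G x) (ev₀ e) ≤ r`, and there
are fine cycles `ι` of `S` with `⟨τ (G ·, y), ι⟩ ≠ 0`, then `w` is exact on `X`: integrate
`w ∪ τ (G x, ev₀ e)` over `ι`.
-/

set_option linter.all false

open Set Finsupp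

namespace Vale.Agent.P216.D337

open Vale.Agent.P216.Sl Vale.Agent.P216.PS
open Vale.Agent.P216.N929 (Coc Fine Cy Tau)

section lists

variable {k : Type} [Field k] {α β : Type}

theorem sp_and {P Q : List α → Prop} {c : Ch k α} (h : c ∈ Sp k P) (h' : c ∈ Sp k Q) :
    c ∈ Sp k fun l => P l ∧ Q l := by
  rw [Finsupp.mem_supported] at h h' ⊢
  exact fun l hl => ⟨h hl, h' hl⟩

/-- `∫ (w ∪ g)` over `ι` in the second factor, `w` a normalised cochain of the first factor. -/
theorem fib_front {f : List α → k} (hf : Nrm f) (g : List (α × β) → k) {q n : ℕ} {s : List α}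
    (hs : s.length = q + 1) {a : α} (ha : s.drop q = [a]) {ι : Ch k β}
    (hι : ι ∈ Sp k (Ln (n + 1))) :
    fib (fun l => f ((l.take (q + 1)).map Prod.fst) * g (l.drop q)) ι s =
      f s * ev (fun t => g (t.map fun b => (a, b))) ι := by
  have hs0 : s ≠ [] := by
    rintro rfl
    simp at hs
  have := eq_of_mem (P := Ln (n + 1))
    (F := ev (fun l => f ((l.take (q + 1)).map Prod.fst) * g (l.drop q)) ∘ₗ
      (sh (k := k) (α := α) (β := β)) (single s 1))
    (G := f s • ev fun t => g (t.map fun b => (a, b))) (fun t ht => by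
      have ht' : t.length = n + 1 := ht
      have ht0 : t ≠ [] := by
        rintro rfl
        simp at ht'
      have e1 : s.take (q + 1) = s := List.take_of_length_le hs.le
      rw [LinearMap.comp_apply, sh_single, front_left hf g q s t (by omega) hs0 ht0,
        if_pos (by omega), ha, Sh_point_left a ht0, ev_single, one_mul, e1, LinearMap.smul_apply,
        ev_single, one_mul, smul_eq_mul]) hι
  simpa [fib] using this

/-- A cycle in the normal sense. -/
theorem bd_zero_of_cy [PseudoMetricSpace α] {X : Set α} {ε : ℝ} {n : ℕ} (hn : 1 ≤ n) {z : Ch k α}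
    (hz : Cy X ε n z) : bd z = 0 := by
  have h1 : bd z ∈ Sp k (Ln n) := bd_mem' (Sp_mono (fun l hl => hl.1) hz.1)
  have h2 := sp_and h1 hz.2
  have h3 : (Sp k fun l : List α => Ln n l ∧ Ln 0 l) ≤ ⊥ := by
    intro c hc
    rw [Finsupp.mem_supported] at hc
    rw [Submodule.mem_bot, ← Finsupp.support_eq_empty]
    by_contra hne
    obtain ⟨l, hl⟩ := Finset.nonempty_iff_ne_empty.2 hne
    obtain ⟨a, b⟩ : l.length = n ∧ l.length = 0 := hc hl
    omega
  exact (Submodule.mem_bot k).1 (h3 h2)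

end lists

section main

variable {k : Type} [Field k] {M S E : Type} [MetricSpace M] [PseudoMetricSpace S]
  [PseudoMetricSpace E] {n : ℕ} {ρ₁ r : ℝ}

/-- the Thom cochain along `(e, x) ↦ (G x, ev₀ e)` -/
def tE (τ : Tau k M n ρ₁) (ev₀ : E → M) (G : S → M) (l : List (E × S)) : k :=
  τ.f (l.map fun p => (G p.2, ev₀ p.1))

/-- the degree of `G` at `y` -/
noncomputable def dg (τ : Tau k M n ρ₁) (G : S → M) (ι : Ch k S) (y : M) : k :=
  ev (fun l => τ.f (l.map fun x => (G x, y))) ι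

theorem fine_tE {τ : Tau k M n ρ₁} {ev₀ : E → M} (hev : ∀ e e', dist (ev₀ e) (ev₀ e') ≤ dist e e')
    {G : S → M} {δ : ℝ} (hG : ∀ x y, dist x y < δ → dist (G x) (G y) < τ.ε) {l : List (E × S)}
    (hl : ∀ p ∈ l, ∀ p' ∈ l, dist p p' < min δ τ.ε) :
    Fine univ τ.ε (l.map fun p => (G p.2, ev₀ p.1)) := by
  refine ⟨fun _ _ => mem_univ _, fun a ha b hb => ?_⟩
  obtain ⟨p, hp, rfl⟩ := List.mem_map.1 ha
  obtain ⟨p', hp', rfl⟩ := List.mem_map.1 hb
  have h := hl p hp p' hp'
  have h1 : dist p.2 p'.2 < δ := (le_max_right _ _).trans_lt (h.trans_le (min_le_left _ _))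
  have h2 : dist p.1 p'.1 < τ.ε := (le_max_left _ _).trans_lt (h.trans_le (min_le_right _ _))
  exact max_lt (hG _ _ h1) ((hev _ _).trans_lt h2)

/-- **The degree is locally constant.** -/
theorem dg_eq {τ : Tau k M n ρ₁} (hn : 1 ≤ n) {G : S → M} {δ : ℝ}
    (hG : ∀ x y, dist x y < δ → dist (G x) (G y) < τ.ε) {ι : Ch k S}
    (hι : Cy (univ : Set S) (min δ τ.ε) n ι) {y y' : M} (h : dist y y' < min δ τ.ε) :
    dg τ G ι y' = dg τ G ι y := by
  have hm := hι.1
  have hb := bd_zero_of_cy hn hι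
  have hδ : 0 < min δ τ.ε := lt_of_le_of_lt dist_nonneg h
  have h1 := dl_fib_cycle (tE τ (fun y : M => y) G) (m := n)
    (Sp_mono (fun l hl => hl.1) hm) hb (p := 1) (by omega) (s := [y, y']) rfl
  have h2 : fib (dl (tE τ (fun y : M => y) G)) ι [y, y'] = 0 := by
    unfold fib
    refine ev_zero_of (P := fun l : List (M × S) => l.length = n + 2 ∧
      ∀ p ∈ l, ∀ p' ∈ l, dist p p' < min δ τ.ε) (fun l hl => ?_) ?_
    · change dl (fun l => τ.f (l.map fun p : M × S => (G p.2, p.1))) l = 0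
      rw [dl_map]
      exact τ.coc _ (by rw [List.length_map]; exact hl.1)
        (fine_tE (τ := τ) (ev₀ := fun y : M => y) (fun _ _ => le_rfl) hG hl.2)
    · refine sh_mem (P := fun s => s = [y, y'])
        (Q := fun l => l.length = n + 1 ∧ Fine univ (min δ τ.ε) l) (fun s t l hs ht hl => ?_)
        (single_mem (P := fun s => s = [y, y']) rfl (1 : k)) hm
      subst hs
      refine ⟨by have := hl.1; simp at this; omega, fun p hp p' hp' => max_lt ?_
        (ht.2.2 _ (hl.2 p hp).2 _ (hl.2 p' hp').2)⟩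
      have a := (hl.2 p hp).1
      have b := (hl.2 p' hp').1
      simp only [List.mem_cons, List.not_mem_nil, or_false] at a b
      rcases a with a | a <;> rcases b with b | b <;> rw [a, b]
      · rwa [dist_self]
      · exact h
      · rwa [dist_comm]
      · rwa [dist_self]
  rw [h2, dl_cons, dl_one] at h1
  have e : ∀ y : M, fib (tE τ (fun y : M => y) G) ι [y] = dg τ G ι y := by
    intro y
    have := ev_fib (tE τ (fun y : M => y) G) ι (single [y] 1)
    rw [ev_single, one_mul] at this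
    have hm' : ι ∈ Sp k (Ln (n + 1)) := Sp_mono (fun l hl => hl.1) hm
    rw [this, sh_point_left y (Ln_ne hm'), ev_mp]
    unfold tE dg
    congr 2
    funext l
    rw [List.map_map]
    rfl
  rw [e, e] at h1
  exact sub_eq_zero.1 h1

/-- **The degree is constant.** -/
theorem dg_const [PreconnectedSpace M] {τ : Tau k M n ρ₁} (hn : 1 ≤ n) {G : S → M} {δ : ℝ}
    (hδ : 0 < δ) (hG : ∀ x y, dist x y < δ → dist (G x) (G y) < τ.ε) {ι : Ch k S}
    (hι : Cy (univ : Set S) (min δ τ.ε) n ι) (y y' : M) : dg τ G ι y = dg τ G ι y' := by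
  have h : IsLocallyConstant (dg τ G ι) := by
    refine (IsLocallyConstant.iff_exists_open _).2 fun y => ⟨Metric.ball y (min δ τ.ε),
      Metric.isOpen_ball, Metric.mem_ball_self (lt_min hδ τ.hε), fun y' hy' => ?_⟩
    refine dg_eq hn hG hι ?_
    rw [dist_comm]
    exact hy'
  exact h.apply_eq_of_preconnectedSpace y y'

/-- **Transfer.** -/
theorem exL_transfer [PreconnectedSpace M] {τ : Tau k M n ρ₁} (hn : 1 ≤ n) (hr : ρ₁ < r)
    {ev₀ : E → M} (hev : ∀ e e', dist (ev₀ e) (ev₀ e') ≤ dist e e') {G : S → M}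
    (hG : ∀ ε > 0, ∃ δ > 0, ∀ x y, dist x y < δ → dist (G x) (G y) < ε)
    (hcy : ∀ ε > 0, ∃ ι : Ch k S, Cy (univ : Set S) ε n ι ∧ ∃ y, dg τ G ι y ≠ 0) {X : Set E} {q : ℕ}
    {w : List E → k} (hw : Nrm w)
    (hR : ExL {p : E × S | p.1 ∈ X ∧ dist (G p.2) (ev₀ p.1) ≤ r} q
      fun l => w (l.map Prod.fst)) : ExL X q w := by
  obtain ⟨V, hV0, ε₁, hε₁, hV⟩ := hR
  obtain ⟨δ₀, hδ₀, hG₀⟩ := hG τ.ε τ.hε
  obtain ⟨δ₁, hδ₁, hG₁⟩ := hG ((r - ρ₁) / 2) (by linarith)
  -- the scale
  set δ := min (min δ₀ τ.ε) (min (min δ₁ ((r - ρ₁) / 2)) ε₁) with hδ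
  have hδpos : 0 < δ := lt_min (lt_min hδ₀ τ.hε) (lt_min (lt_min hδ₁ (by linarith)) hε₁)
  obtain ⟨ι, hι, y₀, hy₀⟩ := hcy δ hδpos
  have hι' : Cy (univ : Set S) (min δ₀ τ.ε) n ι :=
    ⟨Sp_mono (fun l hl => ⟨hl.1, hl.2.mono subset_rfl (min_le_left _ _)⟩) hι.1, hι.2⟩
  have hb := bd_zero_of_cy hn hι
  have hm : ι ∈ Sp k (Ln (n + 1)) := Sp_mono (fun l hl => hl.1) hι.1
  have hD : ∀ y, dg τ G ι y = dg τ G ι y₀ := fun y => dg_const hn hδ₀ hG₀ hι' y y₀
  -- near and far entries
  have hfar : ∀ l : List (E × S), (∀ p ∈ l, ∀ p' ∈ l, dist p p' < δ) → ∀ l' : List (E × S),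
      (∀ p ∈ l', p ∈ l) → l' ≠ [] → tE τ ev₀ G l' ≠ 0 → ∀ p ∈ l, dist (G p.2) (ev₀ p.1) ≤ r := by
    intro l hl l' hl' hne ht p hp
    obtain ⟨p', hp'⟩ := List.exists_mem_of_ne_nil _ hne
    have h1 : dist (G p'.2) (ev₀ p'.1) < ρ₁ := by
      by_contra h
      exact ht (τ.supp _ ⟨_, List.mem_map.2 ⟨p', hp', rfl⟩, not_lt.1 h⟩)
    have h2 := hl p hp p' (hl' _ hp')
    have h3 : dist p.2 p'.2 < δ₁ := (le_max_right _ _).trans_lt (h2.trans_le
      ((min_le_right _ _).trans ((min_le_left _ _).trans (min_le_left _ _))))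
    have h4 : dist p.1 p'.1 < (r - ρ₁) / 2 := (le_max_left _ _).trans_lt (h2.trans_le
      ((min_le_right _ _).trans ((min_le_left _ _).trans (min_le_right _ _))))
    have h5 := hG₁ _ _ h3
    have h6 := (hev p'.1 p.1).trans_lt (by rwa [dist_comm])
    have h7 := dist_triangle (G p.2) (G p'.2) (ev₀ p.1)
    have h8 := dist_triangle (G p'.2) (ev₀ p'.1) (ev₀ p.1)
    linarith
  -- the primitive upstairs
  obtain ⟨W, hW0, hW⟩ : ∃ W : List (E × S) → k, (q = 0 → ∀ l, W l = 0) ∧
      ∀ l : List (E × S), l.length = q + n + 1 → (∀ p ∈ l, p.1 ∈ X) →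
        (∀ p ∈ l, ∀ p' ∈ l, dist p p' < δ) →
        w ((l.take (q + 1)).map Prod.fst) * tE τ ev₀ G (l.drop q) = dl W l := by
    have hkey : ∀ l : List (E × S), l.length = q + n + 1 → (∀ p ∈ l, p.1 ∈ X) →
        (∀ p ∈ l, ∀ p' ∈ l, dist p p' < δ) → tE τ ev₀ G (l.drop q) ≠ 0 →
        w ((l.take (q + 1)).map Prod.fst) = dl V (l.take (q + 1)) := by
      intro l hl hX hd ht
      have h1 := hfar l hd (l.drop q) (fun p hp => List.mem_of_mem_drop hp)
        (by intro h; have := congrArg List.length h; simp at this; omega) ht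
      refine hV _ (by rw [List.length_take]; omega) ⟨fun p hp => ?_, fun p hp p' hp' => ?_⟩
      · exact ⟨hX p (List.mem_of_mem_take hp), h1 p (List.mem_of_mem_take hp)⟩
      · exact (hd p (List.mem_of_mem_take hp) p' (List.mem_of_mem_take hp')).trans_le
          ((min_le_right _ _).trans (min_le_right _ _))
    rcases q with _ | q
    · refine ⟨fun _ => 0, fun _ _ => rfl, fun l hl hX hd => ?_⟩
      rw [PS.dl_zero_fun]
      by_cases ht : tE τ ev₀ G (l.drop 0) = 0
      · rw [ht, mul_zero]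
      · rw [hkey l hl hX hd ht, funext (hV0 rfl), PS.dl_zero_fun, zero_mul]
    · refine ⟨N929.cup q V (tE τ ev₀ G), fun h => absurd h (Nat.succ_ne_zero q),
        fun l hl hX hd => ?_⟩
      have h1 : dl (tE τ ev₀ G) (l.drop q) = 0 := by
        change dl (fun l => τ.f (l.map fun p : E × S => (G p.2, ev₀ p.1))) (l.drop q) = 0
        rw [dl_map]
        refine τ.coc _ (by rw [List.length_map, List.length_drop]; omega)
          (fine_tE hev hG₀ fun p hp p' hp' => ?_)
        exact (hd p (List.mem_of_mem_drop hp) p' (List.mem_of_mem_drop hp')).trans_le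
          (min_le_left _ _)
      rw [N929.dl_cup q V _ l (by omega), h1, mul_zero, mul_zero, add_zero]
      by_cases ht : tE τ ev₀ G (l.drop (q + 1)) = 0
      · rw [ht, mul_zero, mul_zero]
      · rw [hkey l hl hX hd ht]
  refine ⟨fun s => (dg τ G ι y₀)⁻¹ * fib W ι s, fun h0 s => ?_, δ, hδpos, fun s hs hs' => ?_⟩
  · have e : W = fun _ => 0 := funext (hW0 h0)
    change (dg τ G ι y₀)⁻¹ * ev W _ = 0
    rw [e, ev_zero_fun, mul_zero]
  · rw [PS.dl_smul, dl_fib_cycle W (m := n) hm hb (p := q) (by omega) hs]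
    have h1 : fib (dl W) ι s = fib (fun l => w ((l.take (q + 1)).map Prod.fst) *
        tE τ ev₀ G (l.drop q)) ι s := by
      unfold fib
      refine ev_congr (P := fun l : List (E × S) => l.length = q + n + 1 ∧ (∀ p ∈ l, p.1 ∈ X) ∧
        ∀ p ∈ l, ∀ p' ∈ l, dist p p' < δ) (fun l hl => (hW l hl.1 hl.2.1 hl.2.2).symm) ?_
      refine sh_mem (P := fun s' => s' = s)
        (Q := fun l => l.length = n + 1 ∧ Fine univ δ l) (fun s' t l hs1 ht hl => ?_)
        (single_mem (P := fun s' => s' = s) rfl (1 : k)) hι.1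
      subst hs1
      refine ⟨by have := hl.1; omega, fun p hp => hs'.1 _ (hl.2 p hp).1, fun p hp p' hp' =>
        max_lt (hs'.2 _ (hl.2 p hp).1 _ (hl.2 p' hp').1) (ht.2.2 _ (hl.2 p hp).2 _ (hl.2 p' hp').2)⟩
    obtain ⟨a, ha⟩ : ∃ a, s.drop q = [a] := by
      apply List.length_eq_one_iff.1
      rw [List.length_drop, hs]
      omega
    have h2 : ev (fun t => tE τ ev₀ G (t.map fun b => (a, b))) ι = dg τ G ι (ev₀ a) := by
      unfold tE dg
      congr 2
      funext t
      rw [List.map_map]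
      rfl
    rw [h1, fib_front hw _ hs ha hm, h2, hD (ev₀ a)]
    field_simp

end main

end Vale.Agent.P216.D337
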