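import Vale.Agent.P216.D337.Transfer
import Vale.Agent.P216.D337.TrMap
import Vale.Agent.P216.MV337.ToX

/-!
# P216-D, block [D-TR]: injectivity of the pull back to a space over `S`

`transfer`: `G : S → M` with non-zero degree (measured by the Thom cochain `τ` of `M` and fine
cycles of `S`). A class of `FL M (t + 2 r)` which vanishes on `PY G G univ (t + 2 r)` (the loops
over `S`) vanishes on `FL M t`.
-/

set_option linter.all false

open Set Filter Topology BoundedContinuousFunction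

namespace Vale.Agent.P216.D337

open Vale.Agent.P216.PS Vale.Agent.P216.MV337 Vale.Agent.P216.C337 Vale.Agent.P216.LS
open Vale.Agent.P216.AS (IsMap IsHtpy)
open Vale.Agent.P216.H901 (Hp SpIntl Cu cub bdc ovr tr on Triv)
open Vale.Agent.P216.N929 (Cy Tau)
open Vale.Agent.P216.B64 (HU hres hpull UMap a0 c0)
open Vale.Agent.P216.Sl (Ch exists_cls cls_eq_zero pull_cls res_cls ExL CocL Nrm)

section move

variable {M S : Type} [MetricSpace M] [CompactSpace M] [MetricSpace S] {ρ r t l : ℝ} {G : S → M}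

/-- the segment from `x` to `y` in time `r` -/
noncomputable def sgr (r : ℝ) (x y : M) (u : ℝ) : M := seg x y (max 0 (min 1 (u / r)))

theorem sgr_aux (u : ℝ) : max 0 (min 1 u) ∈ Icc (0:ℝ) 1 :=
  ⟨le_max_left _ _, max_le zero_le_one (min_le_left _ _)⟩

omit [CompactSpace M] in
theorem sgr_lip (hU : UniqSeg M ρ) (hr : 0 < r) (hrρ : r < ρ) {x y : M} (h : dist x y ≤ r) :
    Lip (sgr r x y) := fun u v => by
  unfold sgr
  rw [dist_seg_seg hU (h.trans_lt hrρ) (sgr_aux _) (sgr_aux _)]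
  have h1 : |max 0 (min 1 (u / r)) - max 0 (min 1 (v / r))| ≤ |u / r - v / r| := by
    refine (abs_max_sub_max_le_max _ _ _ _).trans (max_le (by simp) ?_)
    exact (abs_min_sub_min_le_max _ _ _ _).trans (max_le (by simp) le_rfl)
  have h2 : |u / r - v / r| * r = |u - v| := by
    rw [← sub_div, abs_div, abs_of_pos hr, div_mul_cancel₀ _ hr.ne']
  calc _ ≤ |u / r - v / r| * r := mul_le_mul h1 h dist_nonneg (abs_nonneg _)
    _ = _ := h2

omit [CompactSpace M] in
theorem sgr_nonpos (hr : 0 < r) {x y : M} {u : ℝ} (hu : u ≤ 0) : sgr r x y u = x := by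
  unfold sgr
  have h : u / r ≤ 0 := div_nonpos_of_nonpos_of_nonneg hu hr.le
  rw [max_eq_left ((min_le_right _ _).trans h), seg_zero]

omit [CompactSpace M] in
theorem sgr_ge (hr : 0 < r) {x y : M} {u : ℝ} (hu : r ≤ u) : sgr r x y u = y := by
  unfold sgr
  have h : 1 ≤ u / r := (one_le_div hr).2 hu
  rw [min_eq_left h, max_eq_right zero_le_one, seg_one]

/-- the pairs (loop, point of `S`) which are close -/
def RR (G : S → M) (r t : ℝ) : Set ((ℝ →ᵇ M) × S) :=
  {p | p.1 ∈ FL M t ∧ dist (G p.2) (p.1 0) ≤ r}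

theorem isCompact_RR [CompactSpace S] (hG : Continuous G) (ht : 0 ≤ t) :
    IsCompact (RR G r t) := by
  have h : RR G r t = (FL M t ×ˢ univ) ∩ {p : (ℝ →ᵇ M) × S | dist (G p.2) (p.1 0) ≤ r} := by
    ext p
    exact ⟨fun h => ⟨⟨h.1, mem_univ _⟩, h.2⟩, fun h => ⟨h.1.1, h.2⟩⟩
  rw [h]
  refine ((isCompact_FL ht).prod isCompact_univ).inter_right (isClosed_le ?_ continuous_const)
  exact (hG.comp continuous_snd).dist (by fun_prop)

/-- the partial segment -/
noncomputable def pf (r l : ℝ) (x y : M) (u : ℝ) : M := sgr r x y (min u (l * r))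

/-- moving the origin of a loop along the segment -/
noncomputable def mvl (G : S → M) (r t l : ℝ) (p : (ℝ →ᵇ M) × S) : ℝ →ᵇ M :=
  mo (c2 (l * r) t (pf r l (p.1 0) (G p.2)) (pf r l (p.1 0) (G p.2)) p.1)

variable {p : (ℝ →ᵇ M) × S}

omit [CompactSpace M] in
theorem pf_lip (hU : UniqSeg M ρ) (hr : 0 < r) (hrρ : r < ρ) {x y : M} (h : dist x y ≤ r) :
    Lip (pf r l x y) := (sgr_lip hU hr hrρ h).comp fun u v => by
  exact (abs_min_sub_min_le_max _ _ _ _).trans (max_le le_rfl (by simp))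

omit [CompactSpace M] in
theorem pf_zero (hr : 0 < r) (hl : 0 ≤ l) {x y : M} : pf r l x y 0 = x := by
  unfold pf
  exact sgr_nonpos hr (min_le_left _ _)

theorem mvl_mem (hU : UniqSeg M ρ) (hr : 0 < r) (hrρ : r < ρ) (ht : 0 ≤ t) (hl : 0 ≤ l)
    (hp : p ∈ RR G r t) : mvl G r t l p ∈ P (sgr r (p.1 0) (G p.2) (l * r))
      (sgr r (p.1 0) (G p.2) (l * r)) (t + (l * r + l * r)) := by
  have hd : dist (p.1 0) (G p.2) ≤ r := by rw [dist_comm]; exact hp.2
  have h1 := pf_lip (l := l) hU hr hrρ hd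
  refine mo_c2_mem h1 h1 hp.1.1 ht (by positivity) (by positivity) (pf_zero hr hl).symm
    (by rw [pf_zero hr hl]; exact hp.1.2.2 t le_rfl) ?_ ?_
  · exact fun u hu => by unfold pf; rw [min_eq_right hu]
  · exact fun u hu => by unfold pf; rw [min_eq_right hu]

theorem mvl_zero (hr : 0 < r) (ht : 0 ≤ t) (hp : p ∈ RR G r t) : mvl G r t 0 p = p.1 := by
  have e : pf r 0 (p.1 0) (G p.2) = fun _ => p.1 0 := by
    funext u
    unfold pf
    exact sgr_nonpos hr (by rw [zero_mul]; exact min_le_right _ _)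
  unfold mvl
  rw [e, zero_mul]
  have e3 : c2 0 t (fun _ => p.1 0) (fun _ => p.1 0) p.1 = fun u => p.1 u := by
    funext u
    rw [c2_const p.1 _ _ ht hp.1.2.1 hp.1.2.2, sub_zero]
  rw [e3, mo_self]

theorem continuousOn_mvl (hU : UniqSeg M ρ) (hr : 0 < r) (hrρ : r < ρ) (hG : Continuous G)
    (ht : 0 ≤ t) : ContinuousOn (fun z : ℝ × ((ℝ →ᵇ M) × S) => mvl G r t z.1 z.2)
      (Icc (0:ℝ) 1 ×ˢ RR G r t) := by
  have h0 : ContinuousOn (fun z : ℝ × ((ℝ →ᵇ M) × S) => z.2.1 0) (Icc (0:ℝ) 1 ×ˢ RR G r t) :=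
    continuousOn_eval (W := fun z : ℝ × ((ℝ →ᵇ M) × S) => z.2.1) (by fun_prop) continuousOn_const
  have hP : ∀ φ : ℝ × ((ℝ →ᵇ M) × S) → ℝ, ContinuousOn φ (Icc (0:ℝ) 1 ×ˢ RR G r t) →
      ContinuousOn (fun z => pf r z.1 (z.2.1 0) (G z.2.2) (φ z)) (Icc (0:ℝ) 1 ×ˢ RR G r t) := by
    intro φ hφ
    unfold pf sgr
    refine LS.ContinuousOn.seg hU h0 (hG.comp_continuousOn (by fun_prop)) (by fun_prop)
      (fun z hz => ?_) fun z hz => sgr_aux _
    rw [dist_comm]
    exact hz.2.2.trans_lt hrρ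
  have := continuousOn_mo_c2 (B := Icc (0:ℝ) 1 ×ˢ RR G r t) (X := fun z => z.2.2)
    (W := fun z => z.2.1) (τ := fun _ => t) (μ := fun z => z.1 * r)
    (Pf := fun z => pf r z.1 (z.2.1 0) (G z.2.2)) (Qf := fun z => pf r z.1 (z.2.1 0) (G z.2.2))
    (C := t + (r + r)) (by fun_prop) (by fun_prop) continuousOn_const (by fun_prop) hP hP
    (fun _ _ => ht) (fun z hz => (pf_zero hr hz.1.1).symm)
    (fun z hz => by rw [pf_zero hr hz.1.1]; exact hz.2.1.2.2 t le_rfl)
    (fun z hz => pf_lip hU hr hrρ (by rw [dist_comm]; exact hz.2.2))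
    (fun z hz => pf_lip hU hr hrρ (by rw [dist_comm]; exact hz.2.2)) (fun z hz => hz.2.1.1)
    (by linarith) fun z hz => P_subset_PP (P_mono ?_ (mvl_mem hU hr hrρ ht hz.1.1 hz.2))
  · exact continuous_snd.comp_continuousOn this
  · have h1 : z.1 * r ≤ 1 * r := mul_le_mul_of_nonneg_right hz.1.2 hr.le
    linarith

end move

section main

variable {M S : Type} [MetricSpace M] [CompactSpace M] [MetricSpace S] [CompactSpace S]
  {ρ r t : ℝ} {G : S → M}

omit [CompactSpace M] [CompactSpace S] in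
theorem umap_snd (G : S → M) (t : ℝ) :
    UMap (PY G G univ t) (FL M t) (Prod.snd : S × (ℝ →ᵇ M) → (ℝ →ᵇ M)) where
  mapsX _ hq := P_subset_FL hq.2
  eqv i := i.elim
  uc ε hε := ⟨ε, hε, fun _ _ _ _ h => (le_max_right _ _).trans_lt h⟩

theorem umap_mv (hU : UniqSeg M ρ) (hr : 0 < r) (hrρ : r < ρ) (hG : Continuous G) (ht : 0 ≤ t)
    {T : ℝ} (hT : t + (r + r) ≤ T) :
    UMap (RR G r t) (PY G G univ T) (fun p => (p.2, mvl G r t 1 p)) := by
  refine map_of_cont (isCompact_RR hG ht) ?_ fun p hp => ⟨mem_univ _, ?_⟩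
  · refine (continuous_snd.continuousOn).prodMk ?_
    exact (continuousOn_mvl hU hr hrρ hG ht).comp (f := fun p => ((1:ℝ), p)) (by fun_prop)
      fun p hp => ⟨⟨zero_le_one, le_rfl⟩, hp⟩
  · have h := mvl_mem hU hr hrρ ht zero_le_one hp
    rw [one_mul, sgr_ge hr le_rfl] at h
    exact P_mono hT h

theorem umap_fst {T : ℝ} (hT : t ≤ T) : UMap (RR G r t) (FL M T) Prod.fst where
  mapsX _ hp := FL_mono hT hp.1
  eqv i := i.elim
  uc ε hε := ⟨ε, hε, fun _ _ _ _ h => (le_max_left _ _).trans_lt h⟩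

theorem hp_mv (hU : UniqSeg M ρ) (hr : 0 < r) (hrρ : r < ρ) (hG : Continuous G) (ht : 0 ≤ t)
    {T : ℝ} (hT : t + (r + r) ≤ T) :
    Hp (RR G r t) ∅ (FL M T) ∅ Prod.fst (fun p => mvl G r t 1 p) := by
  refine hp_of_cont (isCompact_RR hG ht) (F := fun z => mvl G r t z.1 z.2)
    (continuousOn_mvl hU hr hrρ hG ht) (fun l hl p hp => ?_) (fun _ _ p hp => hp.elim)
    (fun p hp => mvl_zero hr ht hp) fun p hp => rfl
  have h1 : l * r ≤ 1 * r := mul_le_mul_of_nonneg_right hl.2 hr.le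
  exact FL_mono (by linarith) (P_subset_FL (mvl_mem hU hr hrρ ht hl.1 hp))

/-- **Injectivity of the pull back to the loops over `S`, up to the shift `2 r`.** -/
theorem transfer [PreconnectedSpace M] {n : ℕ} {ρ₁ : ℝ} {k : Type} [Field k]
    (τ : Tau k M n ρ₁) (hn : 1 ≤ n) (hU : UniqSeg M ρ) (hr : 0 < r) (hrρ : r < ρ) (hρr : ρ₁ < r)
    (hG : Continuous G)
    (hcy : ∀ ε > 0, ∃ ι : Ch k S, Cy (univ : Set S) ε n ι ∧ ∃ y, dg τ G ι y ≠ 0)
    {t T : ℝ} (ht : 0 ≤ t) (hT : t + (r + r) ≤ T) (h : FL M t ⊆ FL M T) {q : ℕ}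
    (z : HU k (FL M T) q) (hs : UMap (PY G G univ T) (FL M T) Prod.snd)
    (hz : hpull k hs q z = 0) : hres k h q z = 0 := by
  obtain ⟨w, hw, hN, rfl⟩ := exists_cls z
  have htT : t ≤ T := by linarith
  have h1 := hpull_hp (umap_fst (G := G) (r := r) htT)
    ((umap_snd G T).comp (umap_mv hU hr hrρ hG ht hT) : UMap _ _ _) (hp_mv hU hr hrρ hG ht hT)
    (Sl.cls (a0 _) (c0 k) w hw)
  have h2 : hpull k ((umap_snd G T).comp (umap_mv hU hr hrρ hG ht hT) : UMap _ _ _) q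
      (Sl.cls (a0 _) (c0 k) w hw) = 0 := by
    rw [← hpull_hpull hs (umap_mv hU hr hrρ hG ht hT), hz, map_zero]
  rw [h2] at h1
  have h3 : ExL (RR G r t) q fun l => w (l.map Prod.fst) := by
    have h4 : Sl.cls (a0 _) (c0 k) (fun l : List ((ℝ →ᵇ M) × S) => w (l.map Prod.fst))
      (hw.map (umap_fst (G := G) (r := r) htT)) = 0 := by
      rw [← pull_cls]
      exact h1
    exact cls_eq_zero.1 h4
  have h5 : ExL (FL M t) q w := by
    refine exL_transfer (τ := τ) hn hρr (ev₀ := fun w : ℝ →ᵇ M => w 0)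
      (fun e e' => BoundedContinuousFunction.dist_coe_le_dist (f := e) (g := e') 0) (G := G)
      (fun ε hε => ?_) hcy hN h3
    obtain ⟨δ, hδ, hu⟩ := Metric.uniformContinuous_iff.1
      (CompactSpace.uniformContinuous_of_continuous hG) ε hε
    exact ⟨δ, hδ, fun x y hxy => hu hxy⟩
  change Sl.cls (a0 _) (c0 k) w (hw.mono h) = 0
  exact cls_eq_zero.2 h5

end main

end Vale.Agent.P216.D337
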