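import Vale.Agent.P216.C337.Cell
import Vale.Agent.P216.H550.CuMap
import Vale.Agent.P216.H754B.Rev

/-!
# P216-D, block [D-WANG]: the trivialisations of a pulled back path fibration over the caps

`trivPY`: `PY F G univ t = {(y, w) : w` a Moore path of time `≤ t` from `F y` to `G y}` over a space
`Y` with caps (a sphere), as a family over `Y` with fibre `P a b t`, from tracks `F ~ a`, `G ~ b`
over the two caps. `trivOpPY`: for `F = G`, the reversal `(y, w) ↦ (y, rv t w)`.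
-/

set_option linter.all false

open Set Filter Topology BoundedContinuousFunction

namespace Vale.Agent.P216.D337

open Vale.Agent.P216.PS Vale.Agent.P216.MV337 Vale.Agent.P216.C337
open Vale.Agent.P216.AS (IsMap IsHtpy)
open Vale.Agent.P216.H901 (Hp SpIntl Cu cub bdc ovr tr Triv)
open Vale.Agent.P216.H754B (TrivOp EvOp SpOp cuM cuM_enc opP htpy_rv htpy_rv_zero htpy_rv_one
  rv_mem_P rv_mem_FL rv_apply map_rv lip_rv)

/-! ### Isomorphisms and contractions -/

section iso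

variable {E E' E'' : Type} [PseudoMetricSpace E] [PseudoMetricSpace E'] [PseudoMetricSpace E'']
  {A A' : ℝ → Set E} {B B' : ℝ → Set E'} {C C' : ℝ → Set E''} {c : ℝ}

/-- Replacing the second family by an isomorphic one. -/
def spIsoOn (I : SpIntl A A' B B' c) (hc : 0 ≤ c) (e : E' → E'') (d : E'' → E')
    (he : ∀ t, 0 < t → IsMap (tr E') (tr E'') (B t) (C t) e)
    (he' : ∀ t, 0 < t → MapsTo e (B' t) (C' t))
    (hd : ∀ t, 0 < t → IsMap (tr E'') (tr E') (C t) (B t) d)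
    (hd' : ∀ t, 0 < t → MapsTo d (C' t) (B' t)) (hde : ∀ t, 0 < t → ∀ x ∈ B t, d (e x) = x)
    (hed : ∀ t, 0 < t → ∀ x ∈ C t, e (d x) = x) : SpIntl A A' C C' c where
  f t := e ∘ I.f t
  g t := I.g t ∘ d
  f_map t ht := (he _ (by linarith)).comp (I.f_map t ht)
  f_sub t ht := (he' _ (by linarith)).comp (I.f_sub t ht)
  g_map t ht := (I.g_map t ht).comp (hd t ht)
  g_sub t ht := (I.g_sub t ht).comp (hd' t ht)
  f_nat s t hs hst := (I.f_nat s t hs hst).comp_left (he _ (by linarith)) (he' _ (by linarith))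
  g_nat s t hs hst := (I.g_nat s t hs hst).comp_right (hd s hs) (hd' s hs)
  gf t ht := C337.hp_congr (I.gf t ht) (fun x _ => rfl) fun x hx => by
    show I.g (t + c) (I.f t x) = I.g (t + c) (d (e (I.f t x)))
    rw [hde (t + c) (by linarith) _ ((I.f_map t ht).mapsX hx)]
  fg t ht := C337.hp_congr (((I.fg t ht).comp_left (he _ (by linarith))
    (he' _ (by linarith))).comp_right (hd t ht) (hd' t ht)) (fun x hx => hed t ht x hx)
    fun x _ => rfl

end iso

section con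

variable {Y E : Type} [MetricSpace Y] [MetricSpace E] {L : Set Y} {Z : ℝ → Set E} {xm : Y}
  {K : Y × ℝ → Y}

/-- The product with a contractible set. -/
noncomputable def spCon (hL : IsCompact L) (hZ : ∀ t, 0 < t → IsCompact (Z t))
    (hZm : ∀ s t, 0 < s → s ≤ t → Z s ⊆ Z t) (hxm : xm ∈ L)
    (hK : ContinuousOn K (L ×ˢ Icc (0:ℝ) 1)) (hKm : ∀ x ∈ L, ∀ s ∈ Icc (0:ℝ) 1, K (x, s) ∈ L)
    (hK0 : ∀ x ∈ L, K (x, 0) = x) (hK1 : ∀ x ∈ L, K (x, 1) = xm) :
    SpIntl (fun t => L ×ˢ Z t) (fun _ => ∅) Z (fun _ => ∅) 0 where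
  f _ := Prod.snd
  g _ v := (xm, v)
  f_map t ht := by
    rw [add_zero]
    exact map_of_cont (hL.prod (hZ t ht)) continuousOn_snd fun q hq => hq.2
  f_sub t ht := mapsTo_empty _ _
  g_map t ht := by
    rw [add_zero]
    exact map_of_cont (hZ t ht) (by fun_prop) fun v hv => ⟨hxm, hv⟩
  g_sub t ht := mapsTo_empty _ _
  f_nat s t hs hst := by
    rw [add_zero]
    exact H550.hp_refl (map_of_cont (hL.prod (hZ s hs)) continuousOn_snd fun q hq =>
      hZm s t hs hst hq.2) (mapsTo_empty _ _)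
  g_nat s t hs hst := by
    rw [add_zero]
    exact H550.hp_refl (map_of_cont (hZ s hs) (by fun_prop) fun v hv =>
      ⟨hxm, hZm s t hs hst hv⟩) (mapsTo_empty _ _)
  gf t ht := by
    rw [add_zero, add_zero]
    refine hp_of_cont (hL.prod (hZ t ht)) (F := fun p => (K (p.2.1, p.1), p.2.2)) ?_ ?_ ?_ ?_ ?_
    · refine ContinuousOn.prodMk (hK.comp (by fun_prop) fun p hp => ⟨hp.2.1, hp.1⟩) (by fun_prop)
    · exact fun s hs x hx => ⟨hKm _ hx.1 _ hs, hx.2⟩
    · exact fun s hs x hx => hx.elim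
    · exact fun x hx => Prod.ext (hK0 _ hx.1) rfl
    · exact fun x hx => Prod.ext (hK1 _ hx.1) rfl
  fg t ht := by
    rw [add_zero, add_zero]
    exact H550.hp_refl (map_of_cont (hZ t ht) continuousOn_id fun v hv => hv) (mapsTo_empty _ _)

end con

section main

variable {Y M : Type} [MetricSpace Y] [CompactSpace Y] [MetricSpace M] [CompactSpace M] {n : ℕ}
  {y₀ : Y} {F G : Y → M} {a b : M} {m m' : ℝ} {Sp Rp Sm Rm : Y → ℝ → M}

omit [CompactSpace Y] [CompactSpace M] in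
theorem mono_PY' (L : Set Y) : ∀ s t, 0 < s → s ≤ t → PY F G L s ⊆ PY F G L t :=
  fun _ _ _ h => PY_mono le_rfl h

omit [CompactSpace Y] [CompactSpace M] in
theorem ovr_PY (D : Set Y) (t : ℝ) :
    ovr Prod.fst (fun t => PY F G univ t) D t = PY F G D t := by
  ext q
  exact ⟨fun h => ⟨h.2, h.1.2⟩, fun h => ⟨⟨mem_univ _, h.2⟩, h.1⟩⟩

omit [CompactSpace Y] [CompactSpace M] in
theorem PY_empty (t : ℝ) : (∅ : Set (Y × (ℝ →ᵇ M))) = PY F G ∅ t := by
  ext q
  exact ⟨fun h => h.elim, fun h => h.1.elim⟩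

/-- **over `Dm`** -/
noncomputable def spDm (C : Caps n Y y₀) (hF : Continuous F) (hG : Continuous G)
    (hS : TrY C.Dm F (fun _ => a) m Sm) (hR : TrY C.Dm G (fun _ => b) m' Rm) :
    SpIntl (ovr Prod.fst (fun t => PY F G univ t) C.Dm) (fun _ => ∅) (fun t => P a b t)
      (fun _ => ∅) (m + m') :=
  spEq (H550.spComp
    (spEq (B₁ := fun t => C.Dm ×ˢ P a b t) (B₁' := fun _ => (∅ : Set (Y × (ℝ →ᵇ M))))
      (spPY (A := ∅) C.closed_m.isCompact hF.continuousOn hG.continuousOn continuousOn_const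
        continuousOn_const (empty_subset _) hS hR) rfl (ovr_PY C.Dm) PY_empty (fun t => rfl)
        (fun t => (PY_empty t : _ = PY (fun _ => a) (fun _ => b) ∅ t)))
    (spCon C.closed_m.isCompact (fun t ht => isCompact_P _ _ _) (fun s t hs h => P_mono h)
      C.xm_mem C.Km_cont C.Km_mem C.Km_zero C.Km_one)
    (add_nonneg hS.nonneg hR.nonneg) le_rfl
    (fun s t hs h => by rw [ovr_PY, ovr_PY]; exact mono_PY' _ s t hs h)
    (fun s t hs h => subset_rfl) (fun s t hs h => P_mono h) (fun s t hs h => subset_rfl))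
    (add_zero _).symm (fun t => rfl) (fun t => rfl) (fun t => rfl) (fun t => rfl)

/-- the coordinates of the product with a cap -/
noncomputable def cE (C : Caps n Y y₀) (q : Y × (ℝ →ᵇ M)) : Cu (ℝ →ᵇ M) n := enc n q.2 (C.φ q.1)

/-- the inverse -/
noncomputable def cD (C : Caps n Y y₀) (z : Cu (ℝ →ᵇ M) n) : Y × (ℝ →ᵇ M) :=
  (C.ψ (dec2 n z), dec1 n z)

theorem cE_map (C : Caps n Y y₀) {Z : Set (ℝ →ᵇ M)} (hZ : IsCompact Z) :
    IsMap (tr _) (tr _) (C.Dp ×ˢ Z) (cub n Z) (cE C) :=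
  map_of_cont (C.closed_p.isCompact.prod hZ) (enc_cont n continuousOn_snd
    (C.φ_cont.comp continuousOn_fst fun q hq => hq.1))
    fun q hq => enc_mem.2 ⟨hq.2, fun i => C.φ_mem _ hq.1 i⟩

theorem cD_map (C : Caps n Y y₀) {Z : Set (ℝ →ᵇ M)} (hZ : IsCompact Z) :
    IsMap (tr _) (tr _) (cub n Z) (C.Dp ×ˢ Z) (cD C) :=
  map_of_cont (isCompact_cub n hZ)
    ((C.ψ_cont.comp (dec2_cont n).continuousOn fun z hz => ((mem_cub n).1 hz).2).prodMk
      (dec1_cont n).continuousOn)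
    fun z hz => ⟨C.ψ_mem _ ((mem_cub n).1 hz).2, ((mem_cub n).1 hz).1⟩

theorem cE_sub (C : Caps n Y y₀) (Z : Set (ℝ →ᵇ M)) :
    MapsTo (cE C) ((C.Dp ∩ C.Dm) ×ˢ Z) (bdc n Z) := by
  intro q hq
  refine enc_mem'.2 ⟨hq.2, fun i => C.φ_mem _ hq.1.1 i, ?_⟩
  exact (C.bdry _ hq.1.1).1 hq.1.2

theorem cD_sub (C : Caps n Y y₀) (Z : Set (ℝ →ᵇ M)) :
    MapsTo (cD C) (bdc n Z) ((C.Dp ∩ C.Dm) ×ˢ Z) := by
  intro z hz
  obtain ⟨h1, h2⟩ := (mem_bdc n).1 hz
  obtain ⟨h3, h4⟩ := (mem_cub n).1 h1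
  have h5 := C.ψ_mem _ h4
  refine ⟨⟨h5, (C.bdry _ h5).2 ?_⟩, h3⟩
  rw [C.φψ _ h4]
  exact h2

theorem cD_cE (C : Caps n Y y₀) {q : Y × (ℝ →ᵇ M)} (hq : q.1 ∈ C.Dp) : cD C (cE C q) = q := by
  unfold cD cE
  rw [dec1_enc, dec2_enc, C.ψφ _ hq]

theorem cE_cD (C : Caps n Y y₀) {z : Cu (ℝ →ᵇ M) n} (hz : ∀ i, dec2 n z i ∈ Icc (0:ℝ) 1) :
    cE C (cD C z) = z := by
  unfold cD cE
  rw [C.φψ _ hz, enc_dec]

/-- **over `Dp`** -/
noncomputable def spDp (C : Caps n Y y₀) (hF : Continuous F) (hG : Continuous G)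
    (hS : TrY C.Dp F (fun _ => a) m Sp) (hR : TrY C.Dp G (fun _ => b) m' Rp) :
    SpIntl (ovr Prod.fst (fun t => PY F G univ t) C.Dp)
      (ovr Prod.fst (fun t => PY F G univ t) (C.Dp ∩ C.Dm))
      (fun t => cub n (P a b t)) (fun t => bdc n (P a b t)) (m + m') :=
  spEq (spIsoOn (C := fun t => cub n (P a b t)) (C' := fun t => bdc n (P a b t))
    (spPY (A := C.Dp ∩ C.Dm) C.closed_p.isCompact hF.continuousOn hG.continuousOn
      continuousOn_const continuousOn_const inter_subset_left hS hR)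
    (add_nonneg hS.nonneg hR.nonneg) (cE C) (cD C)
    (fun t ht => cE_map C (isCompact_P _ _ _)) (fun t ht => cE_sub C _)
    (fun t ht => cD_map C (isCompact_P _ _ _)) (fun t ht => cD_sub C _)
    (fun t ht q hq => cD_cE C hq.1) fun t ht z hz => cE_cD C ((mem_cub n).1 hz).2) rfl
    (ovr_PY _) (ovr_PY _) (fun t => rfl) (fun t => rfl)

/-- **The trivialisations of the pulled back path fibration.** -/
noncomputable def trivPY (C : Caps n Y y₀) (hF : Continuous F) (hG : Continuous G)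
    (hSp : TrY C.Dp F (fun _ => a) m Sp) (hRp : TrY C.Dp G (fun _ => b) m' Rp)
    (hSm : TrY C.Dm F (fun _ => a) m Sm) (hRm : TrY C.Dm G (fun _ => b) m' Rm) :
    Triv n (Prod.fst : Y × (ℝ →ᵇ M) → Y) (fun t => PY F G univ t) (fun t => P a b t)
      (m + m') where
  c0 := add_nonneg hSp.nonneg hRp.nonneg
  Dp := C.Dp
  Dm := C.Dm
  closed_p := C.closed_p
  closed_m := C.closed_m
  union := C.union
  ev_cont := continuous_fst
  X_comp t ht := isCompact_PY isCompact_univ hF.continuousOn hG.continuousOn ht.le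
  X_mono s t _ h := PY_mono le_rfl h
  Om_comp t _ := isCompact_P _ _ _
  Om_mono s t _ h := P_mono h
  tm := spDm C hF hG hSm hRm
  tp := spDp C hF hG hSp hRp

@[simp] theorem trivPY_tm (C : Caps n Y y₀) (hF : Continuous F) (hG : Continuous G)
    (hSp : TrY C.Dp F (fun _ => a) m Sp) (hRp : TrY C.Dp G (fun _ => b) m' Rp)
    (hSm : TrY C.Dm F (fun _ => a) m Sm) (hRm : TrY C.Dm G (fun _ => b) m' Rm) (t : ℝ)
    (q : Y × (ℝ →ᵇ M)) :
    (trivPY C hF hG hSp hRp hSm hRm).tm.f t q = (tw m t Sm Rm q).2 := rfl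

@[simp] theorem trivPY_tp (C : Caps n Y y₀) (hF : Continuous F) (hG : Continuous G)
    (hSp : TrY C.Dp F (fun _ => a) m Sp) (hRp : TrY C.Dp G (fun _ => b) m' Rp)
    (hSm : TrY C.Dm F (fun _ => a) m Sm) (hRm : TrY C.Dm G (fun _ => b) m' Rm) (t : ℝ)
    (q : Y × (ℝ →ᵇ M)) :
    (trivPY C hF hG hSp hRp hSm hRm).tp.f t q = enc n (tw m t Sp Rp q).2 (C.φ q.1) := rfl

end main

/-! ### The reversal -/

section rev

variable {Y M : Type} [MetricSpace Y] [CompactSpace Y] [MetricSpace M] [CompactSpace M] {n : ℕ}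
  {y₀ : Y} {G : Y → M} {a : M} {m : ℝ} {Rp Rm : Y → ℝ → M}

/-- `(y, w) ↦ (y, rv t w)` -/
noncomputable def rvY (t : ℝ) (q : Y × (ℝ →ᵇ M)) : Y × (ℝ →ᵇ M) := (q.1, H754B.rv t q.2)

theorem rvY_mem {F : Y → M} {L : Set Y} {s t : ℝ} {q : Y × (ℝ →ᵇ M)} (hq : q ∈ PY F G L s)
    (hst : s ≤ t) : rvY t q ∈ PY G F L t := ⟨hq.1, rv_mem_P hq.2 hst⟩

theorem map_rvY {A B : Set (Y × (ℝ →ᵇ M))} (t : ℝ) (hm : MapsTo (rvY t) A B) :
    IsMap (tr _) (tr _) A B (rvY t) where
  mapsX := hm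
  eqv i := i.elim
  uc ε hε := ⟨ε, hε, fun x _ y _ h => max_lt ((le_max_left _ _).trans_lt h)
    ((H754B.dist_rv_le t x.2 y.2).trans_lt ((le_max_right _ _).trans_lt h))⟩

/-- **The reversal of the free loops over `Y`.** -/
noncomputable def evOpPY (G : Y → M) :
    EvOp (Prod.fst : Y × (ℝ →ᵇ M) → Y) (fun t => PY G G univ t) where
  r := rvY
  map t _ := map_rvY t fun _ hq => rvY_mem hq le_rfl
  ev_r _ _ _ _ := rfl
  nat s t hs hst := by
    have h := htpy_rv (A := {w : ℝ →ᵇ M | Lip w}) (B := univ) hst (fun _ hw => hw)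
      fun _ _ _ _ _ => mem_univ _
    refine ⟨fun l => rvY (s + l * (t - s)), ⟨fun l hl q hq => ?_, fun _ _ i => i.elim,
      fun ε hε => ?_⟩, fun _ _ _ _ => rfl, fun q _ => Prod.ext rfl (htpy_rv_zero q.2),
      fun q _ => Prod.ext rfl (htpy_rv_one q.2)⟩
    · exact PY_mono le_rfl (tm_aux hst hl).2 (rvY_mem hq (tm_aux hst hl).1)
    · obtain ⟨δ, hδ, hu⟩ := h.uc ε hε
      refine ⟨min δ ε, lt_min hδ hε, fun l hl l' hl' x hx y hy hll hxy => ?_⟩
      have h1 := hxy.trans_le (min_le_left _ _)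
      have h2 := hxy.trans_le (min_le_right _ _)
      exact max_lt ((le_max_left _ _).trans_lt h2)
        (hu l hl l' hl' x.2 hx.2.1 y.2 hy.2.1 (hll.trans_le (min_le_left _ _))
          ((le_max_right _ _).trans_lt h1))

/-- Transport along tracks commutes with the reversal. -/
theorem tw_rv {L : Set Y} {F F' G' : Y → M} {S R : Y → ℝ → M} {t : ℝ} {q : Y × (ℝ →ᵇ M)}
    (hS : TrY L F F' m S) (hR : TrY L G G' m R) (ht : 0 ≤ t) (hq : q ∈ PY F G L t) :
    rvY (t + 2 * m) (tw m t S R q) = tw m t R S (rvY t q) := by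
  have hn := hS.nonneg
  have h0 := h0_ hS hq
  have h1 := h1_ hR hq
  have l1 := tw_lip hS hR ht hq
  have hq' : rvY t q ∈ PY G F L t := rvY_mem hq le_rfl
  have l2 := tw_lip hR hS ht hq'
  have h0'' := h0_ hR hq'
  have h1'' := h1_ hS hq'
  have h0' : H754B.rv t q.2 0 = R q.1 0 := h0''
  have h1' : H754B.rv t q.2 t = S q.1 0 := h1''
  refine Prod.ext rfl ?_
  change H754B.rv (t + 2 * m) (mo (c2 m t (S q.1) (R q.1) q.2)) =
    mo (c2 m t (R q.1) (S q.1) (H754B.rv t q.2))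
  ext u
  have l2' : Lip (c2 m t (R q.1) (S q.1) (H754B.rv t q.2)) := l2
  rw [rv_apply, l1.mo_apply, l2'.mo_apply]
  rcases le_total u m with h3 | h3
  · rw [c2_three h0 ht h1 (by linarith), c2_one h3]
    congr 1
    ring
  rcases le_total u (m + t) with h4 | h4
  · rw [c2_two h0 (by linarith) (by linarith), c2_two h0' h3 h4, rv_apply]
    congr 1
    ring
  · rw [c2_one (by linarith), c2_three h0' ht h1' h4]
    congr 1
    ring

/-- **The reversals commute with the trivialisations.** -/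
noncomputable def trivOpPY {j : ℕ} (C : Caps (j + 1) Y y₀) (hG : Continuous G)
    (hp : TrY C.Dp G (fun _ => a) m Rp) (hm : TrY C.Dm G (fun _ => a) m Rm) :
    TrivOp (trivPY C hG hG hp hp hm hm) where
  oX := evOpPY G
  oOm := opP a
  tm t ht q hq := by
    have hq' : q ∈ PY G G C.Dm t := by rw [← ovr_PY]; exact hq
    have h := tw_rv hm hm ht.le hq'
    change H754B.rv (t + (m + m)) (tw m t Rm Rm q).2 = (tw m t Rm Rm (rvY t q)).2
    rw [← h, ← two_mul]
    rfl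
  tp t ht q hq := by
    have hq' : q ∈ PY G G C.Dp t := by rw [← ovr_PY]; exact hq
    have h := tw_rv hp hp ht.le hq'
    change cuM (H754B.rv (t + (m + m))) (j + 1) (enc (j + 1) (tw m t Rp Rp q).2 (C.φ q.1)) =
      enc (j + 1) (tw m t Rp Rp (rvY t q)).2 (C.φ q.1)
    rw [cuM_enc, ← h, ← two_mul]
    rfl

end rev

end Vale.Agent.P216.D337
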